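import Mathlib

/-!
# The scalar endgame of the direct proof of the one-dimensional core inequality (S0423)

Pure real-number inequalities: from the four integral facts (1), (2), (4), (5) of helper75's
direct proof (board post 138) about the numbers `p = S 0`, `a = ∫_0^∞ S`,
`b = ∫_0^∞ e^{-t} S t dt`, `d = ∫_0^∞ v e^{-v} S v dv`, deduce `(4/9) e^{-1/3} ≤ d`.
-/

namespace Crest.Agent.Helper42

/-- `e^{-4/3} ≥ 5/21`. -/
theorem exp_neg_four_thirds_ge : (5 : ℝ) / 21 ≤ Real.exp (-(4 / 3)) := by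
  have h1 : (2 : ℝ) / 3 ≤ Real.exp (-(1 / 3)) := by
    have := Real.add_one_le_exp (-(1 / 3 : ℝ))
    linarith
  have h2 : (1 : ℝ) / 2.7182818286 ≤ Real.exp (-1) := by
    rw [Real.exp_neg, one_div]
    exact inv_anti₀ (Real.exp_pos 1) Real.exp_one_lt_d9.le
  have h3 : Real.exp (-(4 / 3)) = Real.exp (-1) * Real.exp (-(1 / 3)) := by
    rw [← Real.exp_add]; norm_num
  rw [h3]
  have h4 : (0 : ℝ) ≤ 1 / 2.7182818286 := by norm_num
  calc (5 : ℝ) / 21 ≤ 1 / 2.7182818286 * (2 / 3) := by norm_num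
    _ ≤ Real.exp (-1) * Real.exp (-(1 / 3)) :=
        mul_le_mul h2 h1 (by norm_num) (Real.exp_pos _).le

/-- For `x ≥ 4/3`: `1 - e^{-x} ≤ x²/(1+x)`, in polynomial form. -/
theorem one_add_sub_sq_le_exp (x : ℝ) (hx : 4 / 3 ≤ x) :
    1 + x - x ^ 2 ≤ Real.exp (-x) * (1 + x) := by
  rcases le_total x (7 / 3) with h7 | h7
  · have h1 : Real.exp (-(4 / 3)) * (7 / 3 - x) ≤ Real.exp (-x) := by
      have h := Real.add_one_le_exp (-(x - 4 / 3))
      have h' : Real.exp (-(x - 4 / 3)) = Real.exp (-x) * Real.exp (4 / 3) := by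
        rw [← Real.exp_add]; ring_nf
      have h'' : Real.exp (-(4 / 3)) * Real.exp (4 / 3) = 1 := by
        rw [← Real.exp_add]; simp
      have hpos : 0 < Real.exp (-(4 / 3)) := Real.exp_pos _
      have : Real.exp (-(4 / 3)) * (-(x - 4 / 3) + 1) ≤ Real.exp (-(4 / 3)) * (Real.exp (-x) * Real.exp (4 / 3)) := by
        rw [← h']; exact mul_le_mul_of_nonneg_left h hpos.le
      calc Real.exp (-(4 / 3)) * (7 / 3 - x) = Real.exp (-(4 / 3)) * (-(x - 4 / 3) + 1) := by ring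
        _ ≤ Real.exp (-(4 / 3)) * (Real.exp (-x) * Real.exp (4 / 3)) := this
        _ = Real.exp (-x) * (Real.exp (-(4 / 3)) * Real.exp (4 / 3)) := by ring
        _ = Real.exp (-x) := by rw [h'']; ring
    have h2 := exp_neg_four_thirds_ge
    have h3 : (5 : ℝ) / 21 * (7 / 3 - x) ≤ Real.exp (-x) :=
      le_trans (mul_le_mul_of_nonneg_right h2 (by linarith)) h1
    have h4 : (5 : ℝ) / 21 * (7 / 3 - x) * (1 + x) ≤ Real.exp (-x) * (1 + x) :=
      mul_le_mul_of_nonneg_right h3 (by linarith)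
    nlinarith [mul_nonneg (sub_nonneg.mpr hx) (by linarith : (0:ℝ) ≤ 16 * x + 7)]
  · have h1 : 0 ≤ Real.exp (-x) * (1 + x) := mul_nonneg (Real.exp_pos _).le (by linarith)
    nlinarith

/-- **Scalar endgame.** -/
theorem core_algebra (p a b d : ℝ) (hp0 : 0 < p) (hp1 : p ≤ 1) (ha : 0 < a)
    (h1 : 4 / 3 * p ≤ a * (1 + Real.log p))
    (h5 : p * (a - b) ≤ a * b)
    (h2 : b * (a - b) ≤ a * d)
    (h4 : b ≤ p * (1 - Real.exp (-(a / p)))) :
    4 / 9 * Real.exp (-(1 / 3)) ≤ d := by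
  have hlog : Real.log p ≤ 0 := Real.log_nonpos hp0.le hp1
  have hL : 0 < 1 + Real.log p := by
    by_contra h
    have h := not_lt.mp h
    have h' : a * (1 + Real.log p) ≤ 0 := mul_nonpos_of_nonneg_of_nonpos ha.le h
    nlinarith
  obtain ⟨x, hxa⟩ : ∃ x, a = p * x := ⟨a / p, by field_simp⟩
  have hxdiv : a / p = x := by rw [hxa]; field_simp
  rw [hxdiv] at h4
  have hx0 : 0 < x := by
    by_contra h
    have h := not_lt.mp h
    nlinarith
  subst hxa
  -- `x (1 + log p) ≥ 4/3`, hence `x ≥ 4/3`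
  have hx1 : 4 / 3 ≤ x * (1 + Real.log p) := by
    have : p * (4 / 3) ≤ p * (x * (1 + Real.log p)) := by nlinarith
    exact le_of_mul_le_mul_left this hp0
  have hx43 : 4 / 3 ≤ x := by nlinarith
  -- lower and upper bounds for `b`
  have hb_lo : p * x ≤ b * (1 + x) := by
    have : p * (p * x) ≤ p * (b * (1 + x)) := by nlinarith
    exact le_of_mul_le_mul_left this hp0
  have hexp := one_add_sub_sq_le_exp x hx43
  have hb_hi : b * (1 + x) ≤ p * x ^ 2 := by
    have h41 : b * (1 + x) ≤ p * (1 - Real.exp (-x)) * (1 + x) :=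
      mul_le_mul_of_nonneg_right h4 (by linarith)
    have h42 : p * (1 - Real.exp (-x)) * (1 + x) ≤ p * x ^ 2 := by
      have : p * ((1 - Real.exp (-x)) * (1 + x)) ≤ p * x ^ 2 :=
        mul_le_mul_of_nonneg_left (by nlinarith) hp0.le
      linarith
    linarith
  have hkey : p ^ 2 * x ^ 3 ≤ b * (p * x - b) * (1 + x) ^ 2 := by
    nlinarith [mul_nonneg (sub_nonneg.mpr hb_lo) (sub_nonneg.mpr hb_hi)]
  have hd : p * x ^ 2 ≤ d * (1 + x) ^ 2 := by
    have hpx : 0 < p * x := mul_pos hp0 hx0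
    have h2' : b * (p * x - b) * (1 + x) ^ 2 ≤ p * x * d * (1 + x) ^ 2 :=
      mul_le_mul_of_nonneg_right h2 (by positivity)
    have : (p * x) * (p * x ^ 2) ≤ (p * x) * (d * (1 + x) ^ 2) := by nlinarith
    exact le_of_mul_le_mul_left this hpx
  -- exponential substitution
  set u : ℝ := (Real.log p + 1 / 3) / 2 with hu
  have hw : 1 + u ≤ Real.exp u := by
    have := Real.add_one_le_exp u
    linarith
  have hu0 : 0 < 1 + u := by rw [hu]; linarith
  have hp : p = Real.exp u * Real.exp u * Real.exp (-(1 / 3)) := by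
    rw [← Real.exp_add, ← Real.exp_add]
    have : u + u + -(1 / 3) = Real.log p := by rw [hu]; ring
    rw [this, Real.exp_log hp0]
  set w : ℝ := Real.exp u with hwdef
  set E : ℝ := Real.exp (-(1 / 3)) with hE
  have hEpos : 0 < E := Real.exp_pos _
  have hwpos : 0 < w := Real.exp_pos _
  -- `3 w x ≥ 2 (1 + x)`
  have h3 : 2 * (1 + x) ≤ 3 * w * x := by
    have hxu : 2 ≤ x * (1 + 3 * u) := by
      have : x * (1 + Real.log p) = x * (2 * u + 2 / 3) := by rw [hu]; ring
      rw [this] at hx1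
      nlinarith
    nlinarith
  have h4' : 4 * (1 + x) ^ 2 ≤ 9 * w ^ 2 * x ^ 2 := by
    have h0 : 0 ≤ 2 * (1 + x) := by linarith
    nlinarith
  have h5' : 4 / 9 * E * (1 + x) ^ 2 ≤ d * (1 + x) ^ 2 := by
    have : 4 / 9 * E * (1 + x) ^ 2 ≤ w * w * E * x ^ 2 := by
      have := mul_le_mul_of_nonneg_left h4' hEpos.le
      nlinarith
    rw [hp] at hd
    linarith
  have hpos : 0 < (1 + x) ^ 2 := by positivity
  exact le_of_mul_le_mul_right h5' hpos

end Crest.Agent.Helper42
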